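import Mathlib

/-!
Definitions for the free-boundary XY model on squares of the square lattice.
-/

namespace Vale.Agent.P159

open MeasureTheory

/-- The square `[-R, R]²` of the square lattice. -/
noncomputable abbrev box (R : ℕ) : Finset (ℤ × ℤ) :=
  Finset.Icc (-(R : ℤ)) R ×ˢ Finset.Icc (-(R : ℤ)) R

/-- The nearest-neighbour edges inside the square, each once (right and up steps). -/
noncomputable def edges (R : ℕ) : Finset ({v // v ∈ box R} × {v // v ∈ box R}) :=
  Finset.univ.filter fun e =>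
    (e.2 : ℤ × ℤ) = (e.1 : ℤ × ℤ) + (1, 0) ∨ (e.2 : ℤ × ℤ) = (e.1 : ℤ × ℤ) + (0, 1)

/-- The Boltzmann weight `exp (b * sum over edges of cos (θ x - θ y))`. -/
noncomputable def weight (R : ℕ) (b : ℝ) (θ : {v // v ∈ box R} → ℝ) : ℝ :=
  Real.exp (b * ∑ e ∈ edges R, Real.cos (θ e.1 - θ e.2))

/-- The free-boundary two-point function `E cos (θ x - θ y)` on the square, at inverse
temperature `b`. -/
noncomputable def corr (R : ℕ) (b : ℝ) (x y : {v // v ∈ box R}) : ℝ :=
  (∫ θ in Set.univ.pi fun _ => Set.Ioc (0 : ℝ) (2 * Real.pi),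
      Real.cos (θ x - θ y) * weight R b θ) /
    ∫ θ in Set.univ.pi fun _ => Set.Ioc (0 : ℝ) (2 * Real.pi), weight R b θ

/-- The Bessel ratio `I₁(k) / I₀(k)`. -/
noncomputable def rho (k : ℝ) : ℝ :=
  (∫ t in (0 : ℝ)..2 * Real.pi, Real.cos t * Real.exp (k * Real.cos t)) /
    ∫ t in (0 : ℝ)..2 * Real.pi, Real.exp (k * Real.cos t)

end Vale.Agent.P159
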