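import Mathlib

/-!
A truncated logarithmic potential on the square lattice and its discrete Dirichlet energy.
-/

namespace Vale.Agent.P159

open Finset Real

theorem sum_int_le (g : ℕ → ℝ) (hg : ∀ i, 0 ≤ g i) (s : Finset ℤ) (N : ℕ)
    (hs : ∀ x ∈ s, x.natAbs ≤ N) :
    ∑ x ∈ s, g x.natAbs ≤ g 0 + 2 * ∑ i ∈ range N, g (i + 1) := by
  induction N generalizing s with
  | zero =>
    have hsub : s ⊆ {0} := fun x hx => by
      have := hs x hx
      rw [mem_singleton]; omega
    refine (sum_le_sum_of_subset_of_nonneg hsub fun x _ _ => hg _).trans ?_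
    simp
  | succ N ih =>
    rw [← sum_filter_add_sum_filter_not s (fun x => x.natAbs ≤ N), sum_range_succ]
    have h1 := ih (s.filter fun x => x.natAbs ≤ N) fun x hx => (mem_filter.1 hx).2
    have h2 : ∑ x ∈ s.filter (fun x => ¬x.natAbs ≤ N), g x.natAbs ≤ 2 * g (N + 1) := by
      have hsub : s.filter (fun x => ¬x.natAbs ≤ N) ⊆ {((N : ℤ) + 1), -((N : ℤ) + 1)} := by
        intro x hx
        obtain ⟨hx1, hx2⟩ := mem_filter.1 hx
        have := hs x hx1
        simp only [mem_insert, mem_singleton]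
        omega
      refine (sum_le_sum_of_subset_of_nonneg hsub fun x _ _ => hg _).trans ?_
      rw [sum_pair (by omega)]
      have e1 : (((N : ℤ) + 1)).natAbs = N + 1 := by omega
      rw [Int.natAbs_neg, e1]
      linarith
    linarith

theorem arctan_step {q : ℝ} (hq : 0 < q) (i : ℕ) :
    1 / (((i : ℝ) + 1) ^ 2 + q) ≤
      (arctan (((i : ℝ) + 1) / √q) - arctan ((i : ℝ) / √q)) / √q := by
  set u := √q with hu
  have hu0 : 0 < u := Real.sqrt_pos.2 hq
  have hqu : u ^ 2 = q := Real.sq_sqrt hq.le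
  have hab : (i : ℝ) / u < ((i : ℝ) + 1) / u := div_lt_div_of_pos_right (by linarith) hu0
  obtain ⟨c, ⟨hc1, hc2⟩, hc⟩ := exists_hasDerivAt_eq_slope arctan (fun x => 1 / (1 + x ^ 2)) hab
    continuous_arctan.continuousOn fun x _ => hasDerivAt_arctan x
  have hd : ((i : ℝ) + 1) / u - (i : ℝ) / u = 1 / u := by field_simp; ring
  rw [hd, div_div_eq_mul_div, div_one, eq_comm] at hc
  have hval : arctan (((i : ℝ) + 1) / u) - arctan ((i : ℝ) / u) = 1 / (1 + c ^ 2) / u := by
    rw [← hc]; field_simp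
  rw [hval, div_div, div_div, ← hqu]
  have hc0 : 0 < c := lt_of_le_of_lt (by positivity) hc1
  refine one_div_le_one_div_of_le (by positivity) ?_
  have hcu : c * u ≤ (i : ℝ) + 1 := ((lt_div_iff₀ hu0).1 hc2).le
  nlinarith [mul_self_le_mul_self (by positivity : 0 ≤ c * u) hcu]

theorem row_le {q : ℝ} (hq : 0 < q) (s : Finset ℤ) :
    ∑ x ∈ s, 1 / ((x : ℝ) ^ 2 + q) ≤ 1 / q + π / √q := by
  set N := s.sup Int.natAbs
  have hcast : ∀ x : ℤ, (x : ℝ) ^ 2 = ((x.natAbs : ℕ) : ℝ) ^ 2 := fun x => by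
    rw [Nat.cast_natAbs, Int.cast_abs, sq_abs]
  simp only [hcast]
  refine (sum_int_le (fun i => 1 / ((i : ℝ) ^ 2 + q)) (fun i => by positivity) s N
    fun x hx => le_sup (f := Int.natAbs) hx).trans ?_
  simp only [Nat.cast_zero, ne_eq, OfNat.ofNat_ne_zero, not_false_eq_true, zero_pow, zero_add]
  have h : ∑ i ∈ range N, 1 / (((i + 1 : ℕ) : ℝ) ^ 2 + q) ≤ π / 2 / √q := by
    refine (sum_le_sum fun i _ => le_of_eq_of_le (by push_cast; ring)
      (arctan_step hq i)).trans ?_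
    rw [← sum_div]
    refine div_le_div_of_nonneg_right ?_ (Real.sqrt_nonneg q)
    have := sum_range_sub (fun i : ℕ => arctan ((i : ℝ) / √q)) N
    push_cast at this
    rw [this]
    simp [(arctan_lt_pi_div_two _).le]
  have : 2 * (π / 2 / √q) = π / √q := by ring
  linarith

theorem strip_le {A : ℝ} (hA : 1 ≤ A) {N : ℕ} (S : Finset (ℤ × ℤ))
    (hS : ∀ v ∈ S, v.2.natAbs ≤ N) :
    ∑ v ∈ S, 1 / ((v.1 : ℝ) ^ 2 + (v.2 : ℝ) ^ 2 + A) ≤ 2 * π * Real.log N + (1 + 4 * π) := by
  refine (sum_le_sum_of_subset_of_nonneg (t := S.image Prod.fst ×ˢ S.image Prod.snd)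
    (fun v hv => mem_product.2 ⟨mem_image_of_mem _ hv, mem_image_of_mem _ hv⟩)
    fun v _ _ => by positivity).trans ?_
  rw [sum_product_right]
  have hrow : ∀ y : ℤ, ∑ x ∈ S.image Prod.fst, 1 / ((x : ℝ) ^ 2 + (y : ℝ) ^ 2 + A) ≤
      1 / ((y : ℝ) ^ 2 + 1) + π / √((y : ℝ) ^ 2 + A) := fun y => by
    simp only [add_assoc]
    refine (row_le (by positivity) _).trans (add_le_add ?_ le_rfl)
    exact one_div_le_one_div_of_le (by positivity) (by linarith)
  refine (sum_le_sum fun y _ => hrow y).trans ?_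
  rw [sum_add_distrib]
  have h1 : ∑ y ∈ S.image Prod.snd, 1 / ((y : ℝ) ^ 2 + 1) ≤ 1 + π := by
    simpa using row_le one_pos (S.image Prod.snd)
  set g : ℕ → ℝ := fun i => π / √((i : ℝ) ^ 2 + A) with hg
  have hys : ∀ y : ℤ, π / √((y : ℝ) ^ 2 + A) = g y.natAbs := fun y => by
    simp only [hg]; rw [Nat.cast_natAbs, Int.cast_abs, sq_abs]
  simp only [hys]
  have h2 := sum_int_le g (fun i => by positivity) (S.image Prod.snd) N fun y hy => by
    obtain ⟨v, hv, rfl⟩ := mem_image.1 hy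
    exact hS v hv
  have h3 : ∑ i ∈ range N, g (i + 1) ≤ π * (1 + Real.log N) := by
    refine le_trans (sum_le_sum fun i _ => (?_ : g (i + 1) ≤ π * (1 / ((i : ℝ) + 1)))) ?_
    · simp only [hg]
      rw [mul_one_div, Nat.cast_succ]
      refine div_le_div_of_nonneg_left pi_pos.le (by positivity) ?_
      rw [Real.le_sqrt (by positivity) (by positivity)]
      linarith
    · rw [← mul_sum]
      refine mul_le_mul_of_nonneg_left ?_ pi_pos.le
      refine le_trans (le_of_eq ?_) (harmonic_le_one_add_log N)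
      simp [harmonic]
  have h4 : g 0 ≤ π := by
    simp only [hg]
    exact div_le_self pi_pos.le (Real.one_le_sqrt.2 (by simpa using hA))
  linarith

theorem square_le {A : ℝ} (hA : 1 ≤ A) (S : Finset (ℤ × ℤ)) :
    ∑ v ∈ S, 1 / ((v.1 : ℝ) ^ 2 + (v.2 : ℝ) ^ 2 + A) ^ 2 ≤ (1 + π) ^ 2 := by
  refine (sum_le_sum_of_subset_of_nonneg (t := S.image Prod.fst ×ˢ S.image Prod.snd)
    (fun v hv => mem_product.2 ⟨mem_image_of_mem _ hv, mem_image_of_mem _ hv⟩)
    fun v _ _ => by positivity).trans ?_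
  refine (sum_le_sum fun v _ => (?_ : _ ≤ 1 / ((v.1 : ℝ) ^ 2 + 1) * (1 / ((v.2 : ℝ) ^ 2 + 1)))).trans ?_
  · rw [one_div_mul_one_div, sq ((v.1 : ℝ) ^ 2 + (v.2 : ℝ) ^ 2 + A)]
    exact one_div_le_one_div_of_le (by positivity)
      (mul_le_mul (by nlinarith) (by nlinarith) (by positivity) (by positivity))
  · rw [sum_product]
    simp only []
    rw [← sum_mul_sum, sq]
    exact mul_le_mul (by simpa using row_le one_pos (S.image Prod.fst))
      (by simpa using row_le one_pos (S.image Prod.snd))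
      (sum_nonneg fun y _ => by positivity) (by positivity)

/-- `x² + y² + A`. -/
def nsq (A : ℝ) (v : ℤ × ℤ) : ℝ := (v.1 : ℝ) ^ 2 + (v.2 : ℝ) ^ 2 + A

/-- The truncated logarithmic potential. -/
noncomputable def pot (A L c : ℝ) (v : ℤ × ℤ) : ℝ := c * max 0 (L - Real.log (nsq A v) / 2)

theorem pot_zero {A L c : ℝ} (hA : 0 < A) {v : ℤ × ℤ}
    (h : Real.exp (2 * L) ≤ nsq A v) : pot A L c v = 0 := by
  have hq : 0 < nsq A v := by unfold nsq; positivity
  have : 2 * L ≤ Real.log (nsq A v) := (Real.le_log_iff_exp_le hq).2 h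
  rw [pot, max_eq_left (by linarith), mul_zero]

theorem abs_log_sub_le {a b m : ℝ} (hm : 0 < m) (ha : m ≤ a) (hb : m ≤ b) :
    |Real.log a - Real.log b| ≤ |a - b| / m := by
  have key : ∀ {a b : ℝ}, m ≤ b → b ≤ a → Real.log a - Real.log b ≤ (a - b) / m := by
    intro a b hb hab
    have hb0 : 0 < b := hm.trans_le hb
    rw [← Real.log_div (hb0.trans_le hab).ne' hb0.ne']
    refine (Real.log_le_sub_one_of_pos (div_pos (hb0.trans_le hab) hb0)).trans ?_
    rw [div_sub_one hb0.ne']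
    exact div_le_div_of_nonneg_left (sub_nonneg.2 hab) hm hb
  rcases le_total b a with h | h
  · rw [abs_of_nonneg (sub_nonneg.2 h),
      abs_of_nonneg (sub_nonneg.2 (Real.log_le_log (hm.trans_le hb) h))]
    exact key hb h
  · rw [abs_sub_comm (Real.log a), abs_sub_comm a, abs_of_nonneg (sub_nonneg.2 h),
      abs_of_nonneg (sub_nonneg.2 (Real.log_le_log (hm.trans_le ha) h))]
    exact key ha h

/-- One step in a direction in which the coordinate is `k`. -/
theorem pot_step {A L c η : ℝ} (hc : 0 ≤ c) (hη : 0 < η) (hη1 : η < 1)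
    (hA : (1 / η + 1) / η ≤ A) {v w : ℤ × ℤ} (k : ℝ) (hk : k ^ 2 ≤ (v.1 : ℝ) ^ 2 + (v.2 : ℝ) ^ 2)
    (hw : nsq A w - nsq A v = 2 * k + 1) :
    (pot A L c v - pot A L c w) ^ 2 ≤
      c ^ 2 * ((1 + η) * k ^ 2 + (1 + 1 / η) / 4) / ((1 - η) ^ 2 * nsq A v ^ 2) := by
  have hA0 : 0 < A := lt_of_lt_of_le (by positivity) hA
  have hq : 0 < nsq A v := by unfold nsq; positivity
  have hsmall : |2 * k + 1| ≤ η * nsq A v := by
    have h1 : 1 / η + 1 ≤ A * η := (div_le_iff₀ hη).1 hA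
    have h2 : η * nsq A v ≥ η * k ^ 2 + η * A := by
      unfold nsq; nlinarith
    have hid : η * (η * k ^ 2 + 1 / η - 2 * |k|) = (η * |k| - 1) ^ 2 := by
      rw [← sq_abs k]; field_simp; ring
    have h3 : 0 ≤ η * k ^ 2 + 1 / η - 2 * |k| := by
      by_contra hneg
      push Not at hneg
      nlinarith [sq_nonneg (η * |k| - 1)]
    rw [abs_le]
    constructor <;> linarith [le_abs_self k, neg_le_of_abs_le (le_refl |k|)]
  have hm : (1 - η) * nsq A v ≤ nsq A v ∧ (1 - η) * nsq A v ≤ nsq A w := by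
    rw [abs_le] at hsmall
    constructor <;> nlinarith
  have hm0 : 0 < (1 - η) * nsq A v := mul_pos (by linarith) hq
  have h1 : |pot A L c v - pot A L c w| ≤ c * (|2 * k + 1| / 2 / ((1 - η) * nsq A v)) := by
    rw [pot, pot, ← mul_sub, abs_mul, abs_of_nonneg hc]
    refine mul_le_mul_of_nonneg_left ?_ hc
    rw [max_comm 0, max_comm 0]
    refine (abs_max_sub_max_le_abs _ _ 0).trans ?_
    rw [show L - Real.log (nsq A v) / 2 - (L - Real.log (nsq A w) / 2) =
        (Real.log (nsq A w) - Real.log (nsq A v)) / 2 by ring, abs_div, abs_two,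
        div_right_comm]
    refine div_le_div_of_nonneg_right ?_ zero_le_two
    rw [← hw]
    exact abs_log_sub_le hm0 hm.2 hm.1
  calc (pot A L c v - pot A L c w) ^ 2 = |pot A L c v - pot A L c w| ^ 2 := (sq_abs _).symm
    _ ≤ (c * (|2 * k + 1| / 2 / ((1 - η) * nsq A v))) ^ 2 := pow_le_pow_left₀ (abs_nonneg _) h1 2
    _ = c ^ 2 * (k + 1 / 2) ^ 2 / ((1 - η) ^ 2 * nsq A v ^ 2) := by
        rw [mul_pow, div_pow, div_pow, sq_abs]; field_simp
    _ ≤ _ := by
        refine div_le_div_of_nonneg_right (mul_le_mul_of_nonneg_left ?_ (sq_nonneg c)) (by positivity)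
        have hid : η * (η * k ^ 2 + 1 / (4 * η) - k) = (η * k - 1 / 2) ^ 2 := by
          field_simp; ring
        have h5 : 0 ≤ η * k ^ 2 + 1 / (4 * η) - k := by
          by_contra hneg
          push Not at hneg
          nlinarith [sq_nonneg (η * k - 1 / 2)]
        have h6 : (1 + 1 / η) / 4 = 1 / 4 + 1 / (4 * η) := by field_simp
        nlinarith

end Vale.Agent.P159
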