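import Vale.Agent.P159.Shift
import Vale.Agent.P159.Potential

/-!
The improved power-law upper bound for the free-boundary XY model on squares.
-/

namespace Vale.Agent.P159

open MeasureTheory Real Finset Filter Topology

local instance : Fact (0 < 2 * Real.pi) := ⟨by positivity⟩

theorem integral_cube {V : Type*} [Fintype V] {F : (V → Ang) → ℝ} (hF : Continuous F) :
    ∫ θ in Set.univ.pi fun _ => Set.Ioc (0 : ℝ) (2 * π), F (fun v => ((θ v : ℝ) : Ang)) =
      ∫ θ : V → Ang, F θ := by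
  have h1 : MeasurePreserving (fun s : ℝ => (s : Ang))
      (volume.restrict (Set.Ioc (0 : ℝ) (2 * π))) volume := by
    simpa using AddCircle.measurePreserving_mk (2 * π) 0
  have h2 := measurePreserving_pi (fun _ : V => volume.restrict (Set.Ioc (0 : ℝ) (2 * π)))
    (fun _ : V => (volume : Measure Ang)) fun _ => h1
  rw [volume_pi, volume_pi, Measure.restrict_pi_pi, ← h2.map_eq,
    integral_map h2.measurable.aemeasurable hF.aestronglyMeasurable]

theorem corr_eq (R : ℕ) (b : ℝ) (x y : {v // v ∈ box R}) :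
    corr R b x y = (∫ θ : {v // v ∈ box R} → Ang,
      cA (θ x - θ y) * Real.exp (ham (edges R) (fun _ => b) θ)) /
        part (edges R) fun _ => b := by
  rw [part, ← integral_cube (by fun_prop), ← integral_cube (by fun_prop), corr]
  simp only [weight, ham, ← AddCircle.coe_sub, cA_coe, mul_sum]

/-- The two-centred potential for points at distance `r` along the first axis. -/
noncomputable def dipole (A L c : ℝ) (r : ℕ) (v : ℤ × ℤ) : ℝ :=
  pot A L c v - pot A L c (v - ((r : ℤ), 0))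

/-- The bound on one step. -/
noncomputable def stepBd (A c η k : ℝ) (v : ℤ × ℤ) : ℝ :=
  c ^ 2 * ((1 + η) * k ^ 2 + (1 + 1 / η) / 4) / ((1 - η) ^ 2 * nsq A v ^ 2)

theorem abs_lt_of_pot {A L c : ℝ} {r : ℕ} (hA : 0 < A) (hr : 3 ≤ r)
    (hL : L = Real.log (((r : ℝ) - 2) / 2)) {v : ℤ × ℤ} (h : pot A L c v ≠ 0) :
    |(v.1 : ℝ)| < ((r : ℝ) - 2) / 2 ∧ |(v.2 : ℝ)| < ((r : ℝ) - 2) / 2 := by
  have hr3 : (3 : ℝ) ≤ r := by exact_mod_cast hr
  have hM : 0 < ((r : ℝ) - 2) / 2 := by linarith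
  have hlt : nsq A v < Real.exp (2 * L) := by
    by_contra hge
    push Not at hge
    exact h (pot_zero hA hge)
  rw [hL, two_mul, Real.exp_add, Real.exp_log hM] at hlt
  unfold nsq at hlt
  constructor <;>
    exact abs_lt_of_sq_lt_sq (by nlinarith [sq_nonneg (v.1 : ℝ), sq_nonneg (v.2 : ℝ)]) hM.le

theorem dipole_step {A L c : ℝ} {r : ℕ} (hA : 0 < A) (hr : 3 ≤ r)
    (hL : L = Real.log (((r : ℝ) - 2) / 2)) (v u : ℤ × ℤ) (hu : u = (1, 0) ∨ u = (0, 1)) :
    (dipole A L c r v - dipole A L c r (v + u)) ^ 2 =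
      (pot A L c v - pot A L c (v + u)) ^ 2 +
      (pot A L c (v - ((r : ℤ), 0)) - pot A L c (v - ((r : ℤ), 0) + u)) ^ 2 := by
  have hr3 : (3 : ℝ) ≤ r := by exact_mod_cast hr
  have hz : pot A L c v - pot A L c (v + u) = 0 ∨
      pot A L c (v - ((r : ℤ), 0)) - pot A L c (v - ((r : ℤ), 0) + u) = 0 := by
    by_contra hcon
    push Not at hcon
    obtain ⟨h1, h2⟩ := hcon
    have e1 : pot A L c v ≠ 0 ∨ pot A L c (v + u) ≠ 0 := by
      by_contra hh; push Not at hh; exact h1 (by rw [hh.1, hh.2, sub_zero])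
    have e2 : pot A L c (v - ((r : ℤ), 0)) ≠ 0 ∨ pot A L c (v - ((r : ℤ), 0) + u) ≠ 0 := by
      by_contra hh; push Not at hh; exact h2 (by rw [hh.1, hh.2, sub_zero])
    have f1 : |(v.1 : ℝ)| < ((r : ℝ) - 2) / 2 + 1 := by
      rcases e1 with h | h <;> have := (abs_lt_of_pot hA hr hL h).1
      · linarith
      · rcases hu with rfl | rfl <;> simp only [Prod.fst_add] at this <;> push_cast at this <;>
          rw [abs_lt] at this ⊢ <;> constructor <;> linarith
    have f2 : |(v.1 : ℝ) - r| < ((r : ℝ) - 2) / 2 + 1 := by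
      rcases e2 with h | h <;> have := (abs_lt_of_pot hA hr hL h).1
      · simp only [Prod.fst_sub] at this
        push_cast at this
        linarith
      · rcases hu with rfl | rfl <;> simp only [Prod.fst_add, Prod.fst_sub] at this <;>
          push_cast at this <;> rw [abs_lt] at this ⊢ <;> constructor <;> linarith
    rw [abs_lt] at f1 f2
    linarith
  have hshift : v + u - ((r : ℤ), 0) = v - ((r : ℤ), 0) + u := by abel
  simp only [dipole, hshift]
  rcases hz with h | h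
  · linear_combination (-2 * (pot A L c (v - ((r : ℤ), 0)) - pot A L c (v - ((r : ℤ), 0) + u))) * h
  · linear_combination (-2 * (pot A L c v - pot A L c (v + u))) * h

theorem pot_step_hor {A L c η : ℝ} (hc : 0 ≤ c) (hη : 0 < η) (hη1 : η < 1)
    (hA : (1 / η + 1) / η ≤ A) (v : ℤ × ℤ) :
    (pot A L c v - pot A L c (v + (1, 0))) ^ 2 ≤ stepBd A c η (v.1 : ℝ) v :=
  pot_step hc hη hη1 hA _ (by nlinarith [sq_nonneg (v.2 : ℝ)]) (by
    simp only [nsq, Prod.fst_add, Prod.snd_add]; push_cast; ring)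

theorem pot_step_ver {A L c η : ℝ} (hc : 0 ≤ c) (hη : 0 < η) (hη1 : η < 1)
    (hA : (1 / η + 1) / η ≤ A) (v : ℤ × ℤ) :
    (pot A L c v - pot A L c (v + (0, 1))) ^ 2 ≤ stepBd A c η (v.2 : ℝ) v :=
  pot_step hc hη hη1 hA _ (by nlinarith [sq_nonneg (v.1 : ℝ)]) (by
    simp only [nsq, Prod.fst_add, Prod.snd_add]; push_cast; ring)

theorem stepBd_le {A c η k : ℝ} (hη : 0 < η) (hη1 : η < 1) (hA : 1 ≤ A) (v : ℤ × ℤ)
    (hk : k ^ 2 ≤ (v.1 : ℝ) ^ 2 + (v.2 : ℝ) ^ 2) :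
    stepBd A c η k v ≤ c ^ 2 * ((1 + η) + (1 + 1 / η) / 4) / ((1 - η) ^ 2 * A) := by
  have hq : A ≤ nsq A v := by
    unfold nsq; nlinarith [sq_nonneg (v.1 : ℝ), sq_nonneg (v.2 : ℝ)]
  have hq0 : 0 < nsq A v := by linarith
  have hη' : 0 < 1 + 1 / η := by positivity
  have h1 : 0 < (1 - η) ^ 2 := by nlinarith
  have hkq : k ^ 2 ≤ nsq A v := by unfold nsq; linarith
  unfold stepBd
  rw [div_le_div_iff₀ (by positivity) (by positivity)]
  have e : ((1 + η) * k ^ 2 + (1 + 1 / η) / 4) * A ≤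
      ((1 + η) + (1 + 1 / η) / 4) * nsq A v ^ 2 := by
    have a1 : k ^ 2 * A ≤ nsq A v ^ 2 := by
      rw [sq (nsq A v)]; exact mul_le_mul hkq hq (by linarith) hq0.le
    have a2 : A ≤ nsq A v ^ 2 := by nlinarith
    nlinarith [mul_le_mul_of_nonneg_left a1 (by linarith : (0:ℝ) ≤ 1 + η),
      mul_le_mul_of_nonneg_left a2 (by linarith : (0:ℝ) ≤ (1 + 1 / η) / 4)]
  nlinarith [mul_le_mul_of_nonneg_left e (mul_nonneg (sq_nonneg c) h1.le)]

/-- The energy of one potential. -/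
theorem pot_energy {A L c η : ℝ} {r : ℕ} (hc : 0 ≤ c) (hη : 0 < η) (hη1 : η < 1)
    (hA : (1 / η + 1) / η ≤ A) (hA1 : 1 ≤ A) (hr : 3 ≤ r)
    (hL : L = Real.log (((r : ℝ) - 2) / 2)) (S : Finset (ℤ × ℤ)) :
    ∑ v ∈ S, ((pot A L c v - pot A L c (v + (1, 0))) ^ 2 +
        (pot A L c v - pot A L c (v + (0, 1))) ^ 2) ≤
      c ^ 2 / (1 - η) ^ 2 * ((1 + η) * (2 * π * Real.log r + (1 + 4 * π)) +
        (1 + 1 / η) / 2 * (1 + π) ^ 2) := by
  have hr3 : (3 : ℝ) ≤ r := by exact_mod_cast hr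
  have hA0 : 0 < A := by linarith
  set g : ℤ × ℤ → ℝ := fun v => (pot A L c v - pot A L c (v + (1, 0))) ^ 2 +
    (pot A L c v - pot A L c (v + (0, 1))) ^ 2 with hg
  have hzero : ∀ v : ℤ × ℤ, g v ≠ 0 → v.2.natAbs ≤ r := by
    intro v hv
    have h : pot A L c v ≠ 0 ∨ pot A L c (v + (1, 0)) ≠ 0 ∨ pot A L c (v + (0, 1)) ≠ 0 := by
      by_contra hh; push Not at hh
      simp [hg, hh.1, hh.2.1, hh.2.2] at hv
    have hb : |(v.2 : ℝ)| ≤ r := by
      rcases h with h | h | h <;> have := (abs_lt_of_pot hA0 hr hL h).2 <;>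
        (try simp only [Prod.snd_add] at this) <;> (try push_cast at this) <;>
        rw [abs_lt] at this <;> rw [abs_le] <;> constructor <;> linarith
    rw [← Int.cast_abs, Int.abs_eq_natAbs] at hb
    exact_mod_cast hb
  rw [← sum_filter_ne_zero]
  set T := S.filter fun v => g v ≠ 0
  have hT : ∀ v ∈ T, v.2.natAbs ≤ r := fun v hv => hzero v (mem_filter.1 hv).2
  refine (sum_le_sum fun v _ => add_le_add (pot_step_hor hc hη hη1 hA v)
    (pot_step_ver hc hη hη1 hA v)).trans ?_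
  have hpt : ∀ v : ℤ × ℤ, stepBd A c η (v.1 : ℝ) v + stepBd A c η (v.2 : ℝ) v ≤
      c ^ 2 / (1 - η) ^ 2 * ((1 + η) * (1 / nsq A v) + (1 + 1 / η) / 2 * (1 / nsq A v ^ 2)) := by
    intro v
    have hq : 0 < nsq A v := by unfold nsq; positivity
    have h1 : ((1 : ℝ) - η) ≠ 0 := by linarith
    have e : c ^ 2 / (1 - η) ^ 2 *
        ((1 + η) * (1 / nsq A v) + (1 + 1 / η) / 2 * (1 / nsq A v ^ 2)) =
        c ^ 2 * ((1 + η) * nsq A v + (1 + 1 / η) / 2) / ((1 - η) ^ 2 * nsq A v ^ 2) := by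
      field_simp
    rw [e, stepBd, stepBd, ← add_div]
    refine div_le_div_of_nonneg_right ?_ (by positivity)
    rw [← mul_add]
    refine mul_le_mul_of_nonneg_left ?_ (sq_nonneg c)
    have : (v.1 : ℝ) ^ 2 + (v.2 : ℝ) ^ 2 ≤ nsq A v := by unfold nsq; linarith
    nlinarith
  refine (sum_le_sum fun v _ => hpt v).trans ?_
  rw [← mul_sum, sum_add_distrib, ← mul_sum, ← mul_sum]
  refine mul_le_mul_of_nonneg_left (add_le_add ?_ ?_) (by positivity)
  · exact mul_le_mul_of_nonneg_left (strip_le hA1 T hT) (by linarith)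
  · exact mul_le_mul_of_nonneg_left (square_le hA1 T) (by positivity)

/-- The energy of the dipole over the edges of a square. -/
theorem dipole_energy {A L c η : ℝ} {r R : ℕ} (hc : 0 ≤ c) (hη : 0 < η) (hη1 : η < 1)
    (hA : (1 / η + 1) / η ≤ A) (hA1 : 1 ≤ A) (hr : 3 ≤ r)
    (hL : L = Real.log (((r : ℝ) - 2) / 2)) (x : ℤ × ℤ) :
    ∑ e ∈ edges R, (dipole A L c r (e.1 - x) - dipole A L c r (e.2 - x)) ^ 2 ≤
      2 * (c ^ 2 / (1 - η) ^ 2 * ((1 + η) * (2 * π * Real.log r + (1 + 4 * π)) +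
        (1 + 1 / η) / 2 * (1 + π) ^ 2)) := by
  classical
  set D : ℤ × ℤ → ℤ × ℤ → ℝ := fun u v =>
    (dipole A L c r (v - x) - dipole A L c r (v - x + u)) ^ 2 with hD
  have hdir : ∀ u : ℤ × ℤ, ∑ e ∈ (edges R).filter (fun e => (e.2 : ℤ × ℤ) = (e.1 : ℤ × ℤ) + u),
      (dipole A L c r (e.1 - x) - dipole A L c r (e.2 - x)) ^ 2 ≤ ∑ v ∈ box R, D u v := by
    intro u
    set F := (edges R).filter (fun e => (e.2 : ℤ × ℤ) = (e.1 : ℤ × ℤ) + u)
    calc ∑ e ∈ F, (dipole A L c r (e.1 - x) - dipole A L c r (e.2 - x)) ^ 2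
        = ∑ e ∈ F, D u e.1 := sum_congr rfl fun e he => by
          rw [(mem_filter.1 he).2, add_sub_right_comm]
      _ = ∑ v ∈ F.image (fun e => (e.1 : ℤ × ℤ)), D u v := by
          rw [sum_image]
          intro e he f hf hef
          refine Prod.ext (Subtype.ext hef) (Subtype.ext ?_)
          rw [(mem_filter.1 he).2, (mem_filter.1 hf).2]
          exact congrArg (· + u) hef
      _ ≤ _ := sum_le_sum_of_subset_of_nonneg
          (image_subset_iff.2 fun e _ => e.1.2) fun v _ _ => sq_nonneg _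
  have hsplit : ∑ e ∈ edges R, (dipole A L c r (e.1 - x) - dipole A L c r (e.2 - x)) ^ 2 ≤
      ∑ v ∈ box R, (D (1, 0) v + D (0, 1) v) := by
    rw [sum_add_distrib]
    refine le_trans ?_ (add_le_add (hdir (1, 0)) (hdir (0, 1)))
    rw [← sum_filter_add_sum_filter_not (edges R)
      (fun e => (e.2 : ℤ × ℤ) = (e.1 : ℤ × ℤ) + (1, 0))]
    refine add_le_add le_rfl (sum_le_sum_of_subset_of_nonneg (fun e he => ?_)
      fun e _ _ => sq_nonneg _)
    obtain ⟨h1, h2⟩ := mem_filter.1 he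
    exact mem_filter.2 ⟨h1, ((mem_filter.1 h1).2).resolve_left h2⟩
  refine hsplit.trans ?_
  have hA0 : 0 < A := by linarith
  simp only [hD, dipole_step hA0 hr hL _ _ (Or.inl rfl), dipole_step hA0 hr hL _ _ (Or.inr rfl)]
  set g : ℤ × ℤ → ℝ := fun v => (pot A L c v - pot A L c (v + (1, 0))) ^ 2 +
    (pot A L c v - pot A L c (v + (0, 1))) ^ 2
  have h := fun d : ℤ × ℤ => pot_energy hc hη hη1 hA hA1 hr hL ((box R).image fun v => v - d)
  have himg : ∀ d : ℤ × ℤ, ∑ v ∈ box R, g (v - d) = ∑ w ∈ (box R).image (fun v => v - d), g w :=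
    fun d => (sum_image fun a _ b _ hab => sub_left_injective hab).symm
  calc _ = ∑ v ∈ box R, (g (v - x) + g (v - (x + ((r : ℤ), 0)))) :=
        sum_congr rfl fun v _ => by
          rw [show v - (x + ((r : ℤ), 0)) = v - x - ((r : ℤ), 0) by abel]; ring
    _ ≤ _ := by
        rw [sum_add_distrib, himg, himg, two_mul]
        exact add_le_add (h _) (h _)

theorem degree_le (R : ℕ) (x : {v // v ∈ box R}) :
    ((edges R).filter fun e => e.1 = x ∨ e.2 = x).card ≤ 4 := by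
  have h1 : ((edges R).filter fun e => e.1 = x).card ≤ 2 := by
    refine le_trans (card_le_card_of_injOn (fun e => (e.2 : ℤ × ℤ))
      (t := {(x : ℤ × ℤ) + (1, 0), (x : ℤ × ℤ) + (0, 1)}) ?_ ?_) card_le_two
    · intro e he
      obtain ⟨he, hex⟩ := mem_filter.1 he
      simp only [coe_insert, coe_singleton, Set.mem_insert_iff, Set.mem_singleton_iff, ← hex]
      exact (mem_filter.1 he).2
    · intro e he f hf hef
      exact Prod.ext ((mem_filter.1 he).2.trans (mem_filter.1 hf).2.symm) (Subtype.ext hef)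
  have h2 : ((edges R).filter fun e => e.2 = x).card ≤ 2 := by
    refine le_trans (card_le_card_of_injOn (fun e => (e.1 : ℤ × ℤ))
      (t := {(x : ℤ × ℤ) - (1, 0), (x : ℤ × ℤ) - (0, 1)}) ?_ ?_) card_le_two
    · intro e he
      obtain ⟨he, hex⟩ := mem_filter.1 he
      simp only [coe_insert, coe_singleton, Set.mem_insert_iff, Set.mem_singleton_iff, ← hex]
      rcases (mem_filter.1 he).2 with h | h
      · exact Or.inl (eq_sub_of_add_eq h.symm)
      · exact Or.inr (eq_sub_of_add_eq h.symm)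
    · intro e he f hf hef
      exact Prod.ext (Subtype.ext hef) ((mem_filter.1 he).2.trans (mem_filter.1 hf).2.symm)
  rw [filter_or]
  exact (card_union_le _ _).trans (by omega)

theorem cosh_sub_one_le {δ η : ℝ} (hη1 : η < 1) (hδ : δ ^ 2 / 2 ≤ η) :
    Real.cosh δ - 1 ≤ δ ^ 2 / (2 * (1 - η)) ∧ Real.cosh δ ≤ 1 / (1 - η) := by
  have hu : 0 ≤ δ ^ 2 / 2 := by positivity
  have h1 : Real.cosh δ ≤ 1 / (1 - δ ^ 2 / 2) :=
    (Real.cosh_le_exp_half_sq δ).trans (by
      rw [le_div_iff₀ (by linarith)]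
      have := Real.add_one_le_exp (-(δ ^ 2 / 2))
      calc Real.exp (δ ^ 2 / 2) * (1 - δ ^ 2 / 2) ≤
            Real.exp (δ ^ 2 / 2) * Real.exp (-(δ ^ 2 / 2)) :=
              mul_le_mul_of_nonneg_left (by linarith) (Real.exp_pos _).le
        _ = 1 := by rw [← Real.exp_add, add_neg_cancel, Real.exp_zero])
  have h2 : 1 / (1 - δ ^ 2 / 2) ≤ 1 / (1 - η) := one_div_le_one_div_of_le (by linarith) (by linarith)
  refine ⟨?_, h1.trans h2⟩
  have e : 1 / (1 - δ ^ 2 / 2) - 1 = δ ^ 2 / 2 / (1 - δ ^ 2 / 2) := by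
    rw [div_sub_one (by linarith)]; ring
  have h3 : δ ^ 2 / 2 / (1 - δ ^ 2 / 2) ≤ δ ^ 2 / 2 / (1 - η) :=
    div_le_div_of_nonneg_left hu (by linarith) (by linarith)
  rw [show δ ^ 2 / (2 * (1 - η)) = δ ^ 2 / 2 / (1 - η) by rw [div_div]]
  linarith

theorem abs_corr_le_one (R : ℕ) (b : ℝ) (x y : {v // v ∈ box R}) : |corr R b x y| ≤ 1 := by
  rw [corr_eq, abs_div, abs_of_pos (part_pos _ _), div_le_one (part_pos _ _), part]
  refine abs_integral_le_integral_abs.trans (integral_mono (integrable_cont (by fun_prop))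
    (integrable_cont (by fun_prop)) fun θ => ?_)
  rw [abs_mul, abs_of_pos (Real.exp_pos _)]
  exact mul_le_of_le_one_left (Real.exp_pos _).le (abs_le.2 ⟨neg_one_le_cA _, cA_le_one _⟩)

/-- The estimate for given parameters. -/
theorem corr_le {b c η A : ℝ} (hb : 0 < b) (hc : 0 ≤ c) (hη : 0 < η) (hη1 : η < 1)
    (hA : (1 / η + 1) / η ≤ A) (hA1 : 1 ≤ A)
    (hA2 : c ^ 2 * ((1 + η) + (1 + 1 / η) / 4) / ((1 - η) ^ 2 * A) ≤ η) {R r : ℕ} (hr : 3 ≤ r)
    (x y : {v // v ∈ box R}) (hxy : (y : ℤ × ℤ) = (x : ℤ × ℤ) + ((r : ℤ), 0)) :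
    |corr R b x y| ≤ Real.exp (-(2 * c * (Real.log r - Real.log 6 - Real.log A / 2)) +
      rho (4 * b / (1 - η)) * (b / (1 - η) * (c ^ 2 / (1 - η) ^ 2 *
        ((1 + η) * (2 * π * Real.log r + (1 + 4 * π)) + (1 + 1 / η) / 2 * (1 + π) ^ 2)))) := by
  classical
  have hr3 : (3 : ℝ) ≤ r := by exact_mod_cast hr
  have hA0 : 0 < A := by linarith
  obtain ⟨L, hL⟩ : ∃ L, L = Real.log (((r : ℝ) - 2) / 2) := ⟨_, rfl⟩
  set a : {v // v ∈ box R} → ℝ := fun v => dipole A L c r ((v : ℤ × ℤ) - x) with ha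
  have hloop : ∀ e ∈ edges R, e.1 ≠ e.2 := by
    intro e he h
    have hh := (mem_filter.1 he).2
    rw [h] at hh
    rcases hh with hh | hh <;> simp at hh
  have hcoord : ∀ v : ℤ × ℤ, (v.1 : ℝ) ^ 2 ≤ (v.1 : ℝ) ^ 2 + (v.2 : ℝ) ^ 2 ∧
      (v.2 : ℝ) ^ 2 ≤ (v.1 : ℝ) ^ 2 + (v.2 : ℝ) ^ 2 :=
    fun v => ⟨by nlinarith [sq_nonneg (v.2 : ℝ)], by nlinarith [sq_nonneg (v.1 : ℝ)]⟩
  have hδ : ∀ e ∈ edges R, (a e.1 - a e.2) ^ 2 / 2 ≤ η := by
    intro e he
    have key : ∀ v : ℤ × ℤ, ∀ u, u = ((1 : ℤ), (0 : ℤ)) ∨ u = ((0 : ℤ), (1 : ℤ)) →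
        (pot A L c v - pot A L c (v + u)) ^ 2 ≤ η := by
      intro v u hu
      rcases hu with rfl | rfl
      · exact ((pot_step_hor hc hη hη1 hA v).trans (stepBd_le hη hη1 hA1 v (hcoord v).1)).trans hA2
      · exact ((pot_step_ver hc hη hη1 hA v).trans (stepBd_le hη hη1 hA1 v (hcoord v).2)).trans hA2
    obtain ⟨u, hu, he'⟩ : ∃ u : ℤ × ℤ, (u = (1, 0) ∨ u = (0, 1)) ∧
        (e.2 : ℤ × ℤ) = (e.1 : ℤ × ℤ) + u := by
      rcases (mem_filter.1 he).2 with h | h
      · exact ⟨_, Or.inl rfl, h⟩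
      · exact ⟨_, Or.inr rfl, h⟩
    simp only [ha, he', add_sub_right_comm, dipole_step hA0 hr hL _ _ hu]
    linarith [key ((e.1 : ℤ × ℤ) - (x : ℤ × ℤ)) u hu,
      key ((e.1 : ℤ × ℤ) - (x : ℤ × ℤ) - ((r : ℤ), 0)) u hu]
  have hW : ∀ v, ∑ e ∈ (edges R).filter (fun e => e.1 = v ∨ e.2 = v),
      b * Real.cosh (a e.1 - a e.2) ≤ 4 * b / (1 - η) := by
    intro v
    refine (sum_le_card_nsmul _ _ (b / (1 - η)) fun e he => ?_).trans ?_
    · rw [div_eq_mul_one_div b]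
      exact mul_le_mul_of_nonneg_left (cosh_sub_one_le hη1 (hδ e (mem_filter.1 he).1)).2 hb.le
    · rw [nsmul_eq_mul, mul_div_assoc]
      refine mul_le_mul_of_nonneg_right ?_ (div_nonneg hb.le (by linarith))
      exact_mod_cast degree_le R v
  rw [corr_eq]
  refine (two_point_le (edges R) hloop hb.le a hW x y).trans (Real.exp_le_exp.2 (add_le_add ?_ ?_))
  · refine neg_le_neg ?_
    have hM : 0 < ((r : ℝ) - 2) / 2 := by linarith
    have hz : ∀ v : ℤ × ℤ, (r : ℝ) ≤ |(v.1 : ℝ)| → pot A L c v = 0 := fun v hv => by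
      by_contra h
      have := (abs_lt_of_pot hA0 hr hL h).1
      linarith
    have hax : a x - a y = 2 * pot A L c 0 := by
      simp only [ha, dipole, hxy, sub_self, add_sub_cancel_left, zero_sub]
      rw [hz (-((r : ℤ), 0)) (by simp), hz ((r : ℤ), 0) (by simp)]
      ring
    rw [hax]
    have hp : c * (Real.log r - Real.log 6 - Real.log A / 2) ≤ pot A L c 0 := by
      rw [pot]
      refine mul_le_mul_of_nonneg_left (le_max_of_le_right ?_) hc
      have : Real.log r - Real.log 6 ≤ L := by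
        rw [← Real.log_div (by linarith) (by norm_num), hL]
        exact Real.log_le_log (by positivity) (by linarith)
      simp only [nsq, Prod.fst_zero, Prod.snd_zero]
      norm_num
      linarith
    linarith
  · refine mul_le_mul_of_nonneg_left ?_ (rho_nonneg (div_nonneg (by linarith) (by linarith)))
    have h1 : ∀ e ∈ edges R, b * Real.cosh (a e.1 - a e.2) - b ≤
        b / (1 - η) / 2 * (a e.1 - a e.2) ^ 2 := fun e he => by
      have := mul_le_mul_of_nonneg_left (cosh_sub_one_le hη1 (hδ e he)).1 hb.le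
      calc _ = b * (Real.cosh (a e.1 - a e.2) - 1) := by ring
        _ ≤ _ := this
        _ = _ := by rw [div_div, div_mul_eq_mul_div, mul_div_assoc, mul_comm 2 (1 - η)]
    refine (sum_le_sum h1).trans ?_
    rw [← mul_sum]
    calc _ ≤ b / (1 - η) / 2 * (2 * (c ^ 2 / (1 - η) ^ 2 *
          ((1 + η) * (2 * π * Real.log r + (1 + 4 * π)) + (1 + 1 / η) / 2 * (1 + π) ^ 2))) :=
          mul_le_mul_of_nonneg_left (dipole_energy hc hη hη1 hA hA1 hr hL _)
            (div_nonneg (div_nonneg hb.le (by linarith)) zero_le_two)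
      _ = _ := by ring

/-- Correlations decay at least like `r ^ (-(1 / (2 π b rho(4 b)) - ε))`. -/
theorem xy_upper (b : ℝ) (hb : 0 < b) :
    0 < rho (4 * b) ∧ rho (4 * b) < 1 ∧ ∀ ε > (0 : ℝ), ∃ K : ℝ, ∀ R r : ℕ, 1 ≤ r →
      ∀ x y : {v // v ∈ box R}, (y : ℤ × ℤ) = (x : ℤ × ℤ) + ((r : ℤ), 0) →
        |corr R b x y| ≤ K * (r : ℝ) ^ (-(1 / (2 * π * b * rho (4 * b)) - ε)) := by
  have hρ := rho_pos (by linarith : (0 : ℝ) < 4 * b)
  refine ⟨hρ, rho_lt_one _, fun ε hε => ?_⟩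
  set ρ := rho (4 * b) with hρdef
  set c := 1 / (2 * π * b * ρ) with hc_def
  have hc : 0 < c := by positivity
  set h : ℝ → ℝ := fun η => (1 + η) / (1 - η) ^ 3 *
    (Real.exp (4 * b * η / (1 - η)) * (ρ + (Real.exp (4 * b * η / (1 - η)) - 1))) / ρ with hh
  have h0 : h 0 = 1 := by simp [hh, hρ.ne']
  have hcont : ContinuousAt h 0 := by
    simp only [hh]
    fun_prop (disch := norm_num)
  have hev : ∀ᶠ η in 𝓝[>] (0 : ℝ), h η < 1 + ε / c :=
    (hcont.tendsto.mono_left nhdsWithin_le_nhds).eventually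
      (gt_mem_nhds (by rw [h0]; linarith [div_pos hε hc]))
  obtain ⟨η, hη, hηI⟩ := (hev.and (Ioo_mem_nhdsGT (show (0 : ℝ) < 1 / 2 by norm_num))).exists
  obtain ⟨hη0, hη2⟩ := hηI
  have hη1 : η < 1 := by linarith
  have h1η : (0 : ℝ) < 1 - η := by linarith
  obtain ⟨A, hAa, hAb, hA1⟩ : ∃ A : ℝ, (1 / η + 1) / η ≤ A ∧
      c ^ 2 * ((1 + η) + (1 + 1 / η) / 4) / ((1 - η) ^ 2 * η) ≤ A ∧ 1 ≤ A :=
    ⟨max (max ((1 / η + 1) / η) (c ^ 2 * ((1 + η) + (1 + 1 / η) / 4) / ((1 - η) ^ 2 * η))) 1,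
      (le_max_left _ _).trans (le_max_left _ _), (le_max_right _ _).trans (le_max_left _ _),
      le_max_right _ _⟩
  have hA2 : c ^ 2 * ((1 + η) + (1 + 1 / η) / 4) / ((1 - η) ^ 2 * A) ≤ η := by
    rw [div_le_iff₀ (by positivity)] at hAb
    rw [div_le_iff₀ (by positivity)]
    linarith
  set ρ' := rho (4 * b / (1 - η)) with hρ'
  set K₁ := (1 + η) * (1 + 4 * π) + (1 + 1 / η) / 2 * (1 + π) ^ 2 with hK₁
  set K₀ := 2 * c * (Real.log 6 + Real.log A / 2) +
    ρ' * (b / (1 - η) * (c ^ 2 / (1 - η) ^ 2 * K₁)) with hK₀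
  have hcoef : -(2 * c) + ρ' * (b / (1 - η) * (c ^ 2 / (1 - η) ^ 2 * ((1 + η) * (2 * π)))) ≤
      -(c - ε) := by
    have hd : 4 * b / (1 - η) = 4 * b + 4 * b * η / (1 - η) := by field_simp; ring
    have hle : ρ' ≤ Real.exp (4 * b * η / (1 - η)) *
        (ρ + (Real.exp (4 * b * η / (1 - η)) - 1)) := by
      rw [hρ', hd]
      exact rho_add_le (by linarith) (by positivity)
    have e1 : ρ' * (b / (1 - η) * (c ^ 2 / (1 - η) ^ 2 * ((1 + η) * (2 * π)))) =
        c * ((1 + η) / (1 - η) ^ 3 * ρ' / ρ) := by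
      rw [hc_def]; field_simp
    have e2 : (1 + η) / (1 - η) ^ 3 * ρ' / ρ ≤ h η :=
      div_le_div_of_nonneg_right (mul_le_mul_of_nonneg_left hle (by positivity)) hρ.le
    have e3 : c * (1 + ε / c) = c + ε := by field_simp
    rw [e1]
    nlinarith [mul_le_mul_of_nonneg_left (e2.trans hη.le) hc.le]
  refine ⟨max (Real.exp K₀) (max 1 ((3 : ℝ) ^ (c - ε))), fun R r hr1 x y hxy => ?_⟩
  have hrR : (1 : ℝ) ≤ r := by exact_mod_cast hr1
  have hr0 : (0 : ℝ) < r := by linarith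
  rcases le_or_gt 3 r with hr | hr
  · refine (corr_le hb hc.le hη0 hη1 hAa hA1 hA2 hr x y hxy).trans ?_
    calc _ = Real.exp (K₀ + (-(2 * c) +
          ρ' * (b / (1 - η) * (c ^ 2 / (1 - η) ^ 2 * ((1 + η) * (2 * π))))) * Real.log r) := by
          congr 1; rw [hK₀, hK₁]; ring
      _ ≤ Real.exp (K₀ + -(c - ε) * Real.log r) := by
          gcongr
      _ = Real.exp K₀ * (r : ℝ) ^ (-(c - ε)) := by
          rw [Real.exp_add, Real.rpow_def_of_pos hr0, mul_comm (Real.log r)]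
      _ ≤ _ := mul_le_mul_of_nonneg_right (le_max_left _ _) (Real.rpow_nonneg hr0.le _)
  · refine (abs_corr_le_one R b x y).trans ?_
    rcases le_or_gt (c - ε) 0 with hce | hce
    · calc (1 : ℝ) = 1 * 1 := (one_mul 1).symm
        _ ≤ _ := mul_le_mul ((le_max_left _ _).trans (le_max_right _ _))
            (Real.one_le_rpow hrR (by linarith)) zero_le_one
            (le_trans (Real.exp_pos _).le (le_max_left _ _))
    · calc (1 : ℝ) = (3 : ℝ) ^ (c - ε) * (3 : ℝ) ^ (-(c - ε)) := by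
            rw [← Real.rpow_add (by norm_num), add_neg_cancel, Real.rpow_zero]
        _ ≤ _ := mul_le_mul ((le_max_right _ _).trans (le_max_right _ _))
            (Real.rpow_le_rpow_of_nonpos hr0 (by exact_mod_cast hr.le) (by linarith))
            (Real.rpow_nonneg (by norm_num) _) (le_trans (Real.exp_pos _).le (le_max_left _ _))

end Vale.Agent.P159
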