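import Vale.Agent.P159.Defs

/-!
One angle in the field of its neighbours: the Bessel ratio bound.
-/

namespace Vale.Agent.P159

open MeasureTheory Real Finset

local instance : Fact (0 < 2 * Real.pi) := ⟨by positivity⟩

/-- An angle. -/
abbrev Ang := AddCircle (2 * Real.pi)

/-- Cosine of an angle. -/
noncomputable def cA (u : Ang) : ℝ := Real.Angle.cos u

/-- Sine of an angle. -/
noncomputable def sA (u : Ang) : ℝ := Real.Angle.sin u

theorem cA_coe (x : ℝ) : cA (x : Ang) = Real.cos x := Real.Angle.cos_coe x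

theorem sA_coe (x : ℝ) : sA (x : Ang) = Real.sin x := Real.Angle.sin_coe x

@[fun_prop] theorem continuous_cA : Continuous cA := Real.Angle.continuous_cos

@[fun_prop] theorem continuous_sA : Continuous sA := Real.Angle.continuous_sin

theorem cA_add (u v : Ang) : cA (u + v) = cA u * cA v - sA u * sA v :=
  Real.Angle.cos_add u v

theorem sA_add (u v : Ang) : sA (u + v) = sA u * cA v + cA u * sA v :=
  Real.Angle.sin_add u v

theorem cA_neg (u : Ang) : cA (-u) = cA u := by
  induction u using QuotientAddGroup.induction_on with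
  | H x => exact Real.Angle.cos_neg (x : Real.Angle)

theorem sA_neg (u : Ang) : sA (-u) = -sA u := by
  induction u using QuotientAddGroup.induction_on with
  | H x => exact Real.Angle.sin_neg (x : Real.Angle)

theorem cA_sq_add_sA_sq (u : Ang) : cA u ^ 2 + sA u ^ 2 = 1 := by
  induction u using QuotientAddGroup.induction_on with
  | H x => simp [cA_coe, sA_coe]

theorem cA_le_one (u : Ang) : cA u ≤ 1 := by
  nlinarith [cA_sq_add_sA_sq u, sq_nonneg (sA u), sq_nonneg (cA u - 1)]

theorem neg_one_le_cA (u : Ang) : -1 ≤ cA u := by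
  nlinarith [cA_sq_add_sA_sq u, sq_nonneg (sA u), sq_nonneg (cA u + 1)]

theorem cA_zero : cA 0 = 1 := by
  rw [show (0 : Ang) = ((0 : ℝ) : Ang) from rfl, cA_coe, Real.cos_zero]

theorem integrable_cont {X : Type*} [TopologicalSpace X] [CompactSpace X] [MeasurableSpace X]
    [OpensMeasurableSpace X] {μ : Measure X} [IsFiniteMeasureOnCompacts μ] {E : Type*}
    [NormedAddCommGroup E] [SecondCountableTopologyEither X E] {f : X → E} (hf : Continuous f) :
    Integrable f μ :=
  hf.integrable_of_hasCompactSupport (HasCompactSupport.of_compactSpace f)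

/-- `2π I₀`. -/
noncomputable def A0 (k : ℝ) : ℝ := ∫ u : Ang, Real.exp (k * cA u)

/-- `2π I₁`. -/
noncomputable def A1 (k : ℝ) : ℝ := ∫ u : Ang, cA u * Real.exp (k * cA u)

theorem rho_eq (k : ℝ) : rho k = A1 k / A0 k := by
  unfold rho A1 A0
  rw [← AddCircle.intervalIntegral_preimage (2 * π) 0,
    ← AddCircle.intervalIntegral_preimage (2 * π) 0]
  simp [cA_coe]

theorem A0_pos (k : ℝ) : 0 < A0 k :=
  integral_pos_of_integrable_nonneg_nonzero (x := 0) (by fun_prop)
    (integrable_cont (by fun_prop)) (fun u => (Real.exp_pos _).le) (Real.exp_pos _).ne'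

theorem A1_mul_le {R W : ℝ} (h : R ≤ W) : A1 R * A0 W ≤ A1 W * A0 R := by
  have hpt : ∀ s t : Ang, 0 ≤ (cA s - cA t) *
      (Real.exp (W * cA s) * Real.exp (R * cA t) - Real.exp (R * cA s) * Real.exp (W * cA t)) := by
    intro s t
    rcases le_total (cA t) (cA s) with hc | hc
    · refine mul_nonneg (sub_nonneg.2 hc) (sub_nonneg.2 ?_)
      rw [← Real.exp_add, ← Real.exp_add, Real.exp_le_exp]
      nlinarith [mul_nonneg (sub_nonneg.2 h) (sub_nonneg.2 hc)]
    · refine mul_nonneg_of_nonpos_of_nonpos (sub_nonpos.2 hc) (sub_nonpos.2 ?_)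
      rw [← Real.exp_add, ← Real.exp_add, Real.exp_le_exp]
      nlinarith [mul_nonneg (sub_nonneg.2 h) (sub_nonneg.2 hc)]
  have hin : ∀ s : Ang, (∫ t : Ang, (cA s - cA t) *
      (Real.exp (W * cA s) * Real.exp (R * cA t) - Real.exp (R * cA s) * Real.exp (W * cA t))) =
      cA s * Real.exp (W * cA s) * A0 R - cA s * Real.exp (R * cA s) * A0 W -
        (Real.exp (W * cA s) * A1 R - Real.exp (R * cA s) * A1 W) := by
    intro s
    have : ∀ t : Ang, (cA s - cA t) *
        (Real.exp (W * cA s) * Real.exp (R * cA t) - Real.exp (R * cA s) * Real.exp (W * cA t)) =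
        cA s * Real.exp (W * cA s) * Real.exp (R * cA t) -
          cA s * Real.exp (R * cA s) * Real.exp (W * cA t) -
        (Real.exp (W * cA s) * (cA t * Real.exp (R * cA t)) -
          Real.exp (R * cA s) * (cA t * Real.exp (W * cA t))) := fun t => by ring
    simp only [this]
    rw [integral_sub (integrable_cont (by fun_prop)) (integrable_cont (by fun_prop)),
      integral_sub (integrable_cont (by fun_prop)) (integrable_cont (by fun_prop)),
      integral_sub (integrable_cont (by fun_prop)) (integrable_cont (by fun_prop)),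
      integral_const_mul, integral_const_mul, integral_const_mul, integral_const_mul]
    rfl
  have h0 : 0 ≤ ∫ s : Ang, (cA s * Real.exp (W * cA s) * A0 R -
      cA s * Real.exp (R * cA s) * A0 W -
        (Real.exp (W * cA s) * A1 R - Real.exp (R * cA s) * A1 W)) :=
    integral_nonneg fun s => hin s ▸ integral_nonneg (hpt s)
  rw [integral_sub (integrable_cont (by fun_prop)) (integrable_cont (by fun_prop)),
    integral_sub (integrable_cont (by fun_prop)) (integrable_cont (by fun_prop)),
    integral_sub (integrable_cont (by fun_prop)) (integrable_cont (by fun_prop)),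
    integral_mul_const, integral_mul_const, integral_mul_const, integral_mul_const] at h0
  change 0 ≤ A1 W * A0 R - A1 R * A0 W - (A0 W * A1 R - A0 R * A1 W) at h0
  linarith

theorem A1_pos {k : ℝ} (hk : 0 < k) : 0 < A1 k := by
  have h0 : A1 0 = 0 := by
    simp only [A1, zero_mul, Real.exp_zero, mul_one]
    rw [← AddCircle.intervalIntegral_preimage (2 * π) 0]
    simp [cA_coe]
  have hpos : 0 < ∫ u : Ang, (cA u * Real.exp (k * cA u) - cA u * Real.exp (0 * cA u)) := by
    refine integral_pos_of_integrable_nonneg_nonzero (x := (0 : Ang)) (by fun_prop)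
      (integrable_cont (by fun_prop)) (fun u => ?_) ?_
    · simp only [Pi.zero_apply, zero_mul, Real.exp_zero, mul_one]
      rcases le_total 0 (cA u) with hc | hc
      · nlinarith [Real.one_le_exp (mul_nonneg hk.le hc)]
      · nlinarith [Real.exp_le_one_iff.2 (mul_nonpos_of_nonneg_of_nonpos hk.le hc)]
    · have := Real.add_one_lt_exp hk.ne'
      simp only [cA_zero, zero_mul, Real.exp_zero, mul_one, one_mul]
      linarith
  rw [integral_sub (integrable_cont (by fun_prop)) (integrable_cont (by fun_prop))] at hpos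
  change 0 < A1 k - A1 0 at hpos
  rwa [h0, sub_zero] at hpos

theorem rho_pos {k : ℝ} (hk : 0 < k) : 0 < rho k := by
  rw [rho_eq]; exact div_pos (A1_pos hk) (A0_pos k)

theorem rho_lt_one (k : ℝ) : rho k < 1 := by
  rw [rho_eq, div_lt_one (A0_pos k)]
  have h : 0 < ∫ u : Ang, (Real.exp (k * cA u) - cA u * Real.exp (k * cA u)) := by
    refine integral_pos_of_integrable_nonneg_nonzero (x := ((π : ℝ) : Ang)) (by fun_prop)
      (integrable_cont (by fun_prop)) (fun u => ?_) ?_
    · exact sub_nonneg.2 (mul_le_of_le_one_left (Real.exp_pos _).le (cA_le_one u))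
    · simp only [cA_coe, Real.cos_pi]
      have := Real.exp_pos (k * -1)
      linarith
  rw [integral_sub (integrable_cont (by fun_prop)) (integrable_cont (by fun_prop))] at h
  change 0 < A0 k - A1 k at h
  linarith

theorem rho_mono {R W : ℝ} (h : R ≤ W) : rho R ≤ rho W := by
  rw [rho_eq, rho_eq, div_le_div_iff₀ (A0_pos R) (A0_pos W)]
  exact A1_mul_le h

theorem rho_nonneg {k : ℝ} (hk : 0 ≤ k) : 0 ≤ rho k := by
  rcases hk.eq_or_lt with h | h
  · subst h; simp [rho]
  · exact (rho_pos h).le

/-- A small increase of the field increases the ratio little. -/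
theorem rho_add_le {k d : ℝ} (hk0 : 0 ≤ k) (hd : 0 ≤ d) :
    rho (k + d) ≤ Real.exp d * (rho k + (Real.exp d - 1)) := by
  have h0 : A0 k ≤ Real.exp d * A0 (k + d) := by
    unfold A0
    rw [← integral_const_mul]
    refine integral_mono (integrable_cont (by fun_prop)) (integrable_cont (by fun_prop)) fun u => ?_
    simp only [← Real.exp_add, Real.exp_le_exp]
    nlinarith [neg_one_le_cA u]
  have h1 : A1 (k + d) ≤ A1 k + (Real.exp d - 1) * A0 k := by
    unfold A1 A0
    rw [← integral_const_mul, ← integral_add (integrable_cont (by fun_prop))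
      (integrable_cont (by fun_prop))]
    refine integral_mono (integrable_cont (by fun_prop)) (integrable_cont (by fun_prop)) fun u => ?_
    simp only [add_mul, Real.exp_add]
    have hc : cA u * (Real.exp (d * cA u) - 1) ≤ Real.exp d - 1 := by
      rcases le_total 0 (cA u) with hc | hc
      · have e1 : 0 ≤ Real.exp (d * cA u) - 1 :=
          sub_nonneg.2 (Real.one_le_exp (mul_nonneg hd hc))
        refine (mul_le_of_le_one_left e1 (cA_le_one u)).trans (sub_le_sub_right ?_ 1)
        exact Real.exp_le_exp.2 (mul_le_of_le_one_right hd (cA_le_one u))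
      · have h3 : 1 - Real.exp (d * cA u) ≤ Real.exp d - 1 := by
          nlinarith [Real.add_one_le_exp (d * cA u), Real.add_one_le_exp d,
            mul_le_mul_of_nonneg_left (neg_one_le_cA u) hd]
        have e1 : 0 ≤ 1 - Real.exp (d * cA u) :=
          sub_nonneg.2 (Real.exp_le_one_iff.2 (mul_nonpos_of_nonneg_of_nonpos hd hc))
        nlinarith [mul_le_mul_of_nonneg_right (neg_le.1 (neg_one_le_cA u) : -cA u ≤ 1) e1]
    nlinarith [mul_le_mul_of_nonneg_left hc (Real.exp_pos (k * cA u)).le]
  have hA := A0_pos (k + d)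
  have hk := A0_pos k
  have hr : 0 ≤ A1 k / A0 k := rho_eq k ▸ rho_nonneg hk0
  have he : 0 ≤ Real.exp d - 1 := sub_nonneg.2 (Real.one_le_exp hd)
  rw [rho_eq, rho_eq, div_le_iff₀ hA]
  refine h1.trans ?_
  calc A1 k + (Real.exp d - 1) * A0 k = (A1 k / A0 k + (Real.exp d - 1)) * A0 k := by field_simp
    _ ≤ (A1 k / A0 k + (Real.exp d - 1)) * (Real.exp d * A0 (k + d)) :=
      mul_le_mul_of_nonneg_left h0 (add_nonneg hr he)
    _ = _ := by ring

/-- One angle in any field of total strength at most `W`. -/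
theorem one_site {ι : Type*} (s : Finset ι) (w : ι → ℝ) (φ : ι → Ang) (ψ : Ang) {W : ℝ}
    (hW : ∑ e ∈ s, |w e| ≤ W) :
    ∫ t : Ang, cA (t + ψ) * Real.exp (∑ e ∈ s, w e * cA (t + φ e)) ≤
      rho W * ∫ t : Ang, Real.exp (∑ e ∈ s, w e * cA (t + φ e)) := by
  set P := ∑ e ∈ s, w e * cA (φ e) with hP
  set Q := ∑ e ∈ s, w e * sA (φ e) with hQ
  set z : ℂ := ∑ e ∈ s, (w e : ℂ) * (cA (φ e) + sA (φ e) * Complex.I) with hz
  have hzre : z.re = P := by simp [hz, hP]
  have hzim : z.im = Q := by simp [hz, hQ]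
  have hzn : ‖z‖ ≤ W := by
    refine (norm_sum_le _ _).trans (le_trans (le_of_eq (sum_congr rfl fun e _ => ?_)) hW)
    rw [norm_mul, Complex.norm_real, Real.norm_eq_abs,
      Complex.norm_add_mul_I, cA_sq_add_sA_sq, Real.sqrt_one, mul_one]
  set α : Ang := ((Complex.arg z : ℝ) : Ang) with hα
  have hfield : ∀ t : Ang, ∑ e ∈ s, w e * cA (t + φ e) = ‖z‖ * cA (t + α) := by
    intro t
    have : ∀ e ∈ s, w e * cA (t + φ e) = cA t * (w e * cA (φ e)) - sA t * (w e * sA (φ e)) :=
      fun e _ => by rw [cA_add]; ring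
    rw [sum_congr rfl this, sum_sub_distrib, ← mul_sum, ← mul_sum, ← hP, ← hQ, cA_add, hα,
      cA_coe, sA_coe, ← hzre, ← hzim, ← Complex.norm_mul_cos_arg z, ← Complex.norm_mul_sin_arg z]
    ring
  simp only [hfield]
  rw [← integral_add_right_eq_self (fun t => cA (t + ψ) * Real.exp (‖z‖ * cA (t + α))) (-α),
    ← integral_add_right_eq_self (fun t => Real.exp (‖z‖ * cA (t + α))) (-α)]
  simp only [neg_add_cancel_right]
  have hodd : ∫ t : Ang, sA t * Real.exp (‖z‖ * cA t) = 0 := by
    have h := integral_neg_eq_self (fun t : Ang => sA t * Real.exp (‖z‖ * cA t)) volume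
    simp only [sA_neg, cA_neg, neg_mul, integral_neg] at h
    linarith
  have hexp : ∀ t : Ang, cA (t + -α + ψ) * Real.exp (‖z‖ * cA t) =
      cA (-α + ψ) * (cA t * Real.exp (‖z‖ * cA t)) -
        sA (-α + ψ) * (sA t * Real.exp (‖z‖ * cA t)) := fun t => by
    rw [add_assoc, cA_add]; ring
  simp only [hexp]
  rw [integral_sub (integrable_cont (by fun_prop)) (integrable_cont (by fun_prop)),
    integral_const_mul, integral_const_mul, hodd, mul_zero, sub_zero]
  change cA (-α + ψ) * A1 ‖z‖ ≤ rho W * A0 ‖z‖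
  have hA1 : 0 ≤ A1 ‖z‖ := by
    rcases (norm_nonneg z).eq_or_lt with h | h
    · have h0 := rho_eq 0
      rw [← h]
      have : rho 0 = 0 := by simp [rho]
      rw [this] at h0
      exact le_of_eq ((div_eq_zero_iff.1 h0.symm).resolve_right (A0_pos 0).ne').symm
    · exact (A1_pos h).le
  refine (mul_le_of_le_one_left hA1 (cA_le_one _)).trans ?_
  have := rho_mono hzn
  rw [rho_eq ‖z‖, div_le_iff₀ (A0_pos _)] at this
  exact this

end Vale.Agent.P159
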