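import Vale.Agent.P159.OneSite

/-!
The complex rotation and the energy bound, for a finite graph with weights.
-/

namespace Vale.Agent.P159

open MeasureTheory Real Finset

local instance : Fact (0 < 2 * Real.pi) := ⟨by positivity⟩

variable {V : Type*} [Fintype V] [DecidableEq V]

/-- The energy with edge weights `w`. -/
noncomputable def ham (E : Finset (V × V)) (w : V × V → ℝ) (θ : V → Ang) : ℝ :=
  ∑ e ∈ E, w e * cA (θ e.1 - θ e.2)

/-- The partition function. -/
noncomputable def part (E : Finset (V × V)) (w : V × V → ℝ) : ℝ :=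
  ∫ θ : V → Ang, Real.exp (ham E w θ)

omit [Fintype V] [DecidableEq V] in
@[fun_prop] theorem continuous_ham (E : Finset (V × V)) (w : V × V → ℝ) :
    Continuous (ham E w) := by
  unfold ham; fun_prop

theorem part_pos (E : Finset (V × V)) (w : V × V → ℝ) : 0 < part E w :=
  integral_pos_of_integrable_nonneg_nonzero (x := (0 : V → Ang)) (by fun_prop)
    (integrable_cont (by fun_prop)) (fun u => (Real.exp_pos _).le) (Real.exp_pos _).ne'

/-- The integrand after a shift of the angles by `z * a`, for complex `z`. -/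
noncomputable def rot (E : Finset (V × V)) (b : ℝ) (a : V → ℝ) (x y : V) (z : ℂ)
    (θ : V → Ang) : ℂ :=
  Complex.exp ((b : ℂ) * ∑ e ∈ E, ((cA (θ e.1 - θ e.2) : ℂ) * Complex.cos (z * (a e.1 - a e.2 : ℝ))
      - (sA (θ e.1 - θ e.2) : ℂ) * Complex.sin (z * (a e.1 - a e.2 : ℝ)))
    + z * (a x - a y : ℝ) * Complex.I) *
  ((cA (θ x - θ y) : ℂ) + (sA (θ x - θ y) : ℂ) * Complex.I)

/-- The `z`-derivative of the integrand. -/
noncomputable def rot' (E : Finset (V × V)) (b : ℝ) (a : V → ℝ) (x y : V) (z : ℂ)
    (θ : V → Ang) : ℂ :=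
  rot E b a x y z θ * ((b : ℂ) * ∑ e ∈ E,
      ((cA (θ e.1 - θ e.2) : ℂ) * (-Complex.sin (z * (a e.1 - a e.2 : ℝ)) * (a e.1 - a e.2 : ℝ))
      - (sA (θ e.1 - θ e.2) : ℂ) * (Complex.cos (z * (a e.1 - a e.2 : ℝ)) * (a e.1 - a e.2 : ℝ)))
    + (a x - a y : ℝ) * Complex.I)

omit [Fintype V] [DecidableEq V] in
theorem continuous_rot (E : Finset (V × V)) (b : ℝ) (a : V → ℝ) (x y : V) :
    Continuous fun q : ℂ × (V → Ang) => rot E b a x y q.1 q.2 := by
  unfold rot; fun_prop

omit [Fintype V] [DecidableEq V] in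
theorem continuous_rot' (E : Finset (V × V)) (b : ℝ) (a : V → ℝ) (x y : V) :
    Continuous fun q : ℂ × (V → Ang) => rot' E b a x y q.1 q.2 := by
  unfold rot' rot; fun_prop

theorem hasDerivAt_rot (E : Finset (V × V)) (b : ℝ) (a : V → ℝ) (x y : V) (z : ℂ)
    (θ : V → Ang) :
    HasDerivAt (fun z => rot E b a x y z θ) (rot' E b a x y z θ) z := by
  unfold rot' rot
  have hlin : ∀ c : ℂ, HasDerivAt (fun z : ℂ => z * c) c z := fun c => by
    simpa using (hasDerivAt_id z).mul_const c
  have hsum := HasDerivAt.fun_sum (u := E) fun e _ =>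
    (((hlin ((a e.1 - a e.2 : ℝ) : ℂ)).ccos).const_mul ((cA (θ e.1 - θ e.2) : ℂ))).fun_sub
      (((hlin ((a e.1 - a e.2 : ℝ) : ℂ)).csin).const_mul ((sA (θ e.1 - θ e.2) : ℂ)))
  have h := ((hsum.const_mul (b : ℂ)).fun_add
    ((hlin ((a x - a y : ℝ) : ℂ)).mul_const Complex.I)).cexp.mul_const
      ((cA (θ x - θ y) : ℂ) + (sA (θ x - θ y) : ℂ) * Complex.I)
  refine h.congr_deriv ?_
  ring

theorem rot_real (E : Finset (V × V)) (b : ℝ) (a : V → ℝ) (x y : V) (t : ℝ) (θ : V → Ang) :
    rot E b a x y t θ = rot E b a x y 0 (θ + fun v => ((t * a v : ℝ) : Ang)) := by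
  set τ : V → Ang := fun v => ((t * a v : ℝ) : Ang) with hτ
  have hd : ∀ u v, (θ + τ) u - (θ + τ) v = θ u - θ v + ((t * (a u - a v) : ℝ) : Ang) := by
    intro u v
    simp only [Pi.add_apply, hτ, mul_sub, AddCircle.coe_sub]
    abel
  simp only [rot, hd, cA_add, sA_add, cA_coe, sA_coe, zero_mul, Complex.cos_zero,
    Complex.sin_zero, mul_one, mul_zero, sub_zero, add_zero, Complex.exp_add]
  have hc : ∀ u : ℝ, Complex.cos ((t : ℂ) * (u : ℂ)) = ((Real.cos (t * u) : ℝ) : ℂ) := fun u => by
    rw [← Complex.ofReal_mul, Complex.ofReal_cos]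
  have hs : ∀ u : ℝ, Complex.sin ((t : ℂ) * (u : ℂ)) = ((Real.sin (t * u) : ℝ) : ℂ) := fun u => by
    rw [← Complex.ofReal_mul, Complex.ofReal_sin]
  simp only [hc, hs]
  rw [mul_assoc (Complex.exp _)]
  congr 1
  · push_cast; rfl
  rw [← Complex.ofReal_mul, Complex.exp_mul_I]
  simp only [← Complex.ofReal_cos, ← Complex.ofReal_sin]
  simp only [Complex.ofReal_sub, Complex.ofReal_mul, Complex.ofReal_add]
  linear_combination ((Real.sin (t * (a x - a y)) : ℂ) * (sA (θ x - θ y) : ℂ)) * Complex.I_sq

attribute [local irreducible] rot rot'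

/-- The rotated integral does not depend on the complex parameter. -/
theorem integral_rot (E : Finset (V × V)) (b : ℝ) (a : V → ℝ) (x y : V) (z : ℂ) :
    ∫ θ : V → Ang, rot E b a x y z θ = ∫ θ : V → Ang, rot E b a x y 0 θ := by
  set Φ : ℂ → ℂ := fun z => ∫ θ : V → Ang, rot E b a x y z θ with hΦ
  have hdiff : Differentiable ℂ Φ := by
    intro z₀
    obtain ⟨M, hM⟩ := ((isCompact_closedBall z₀ 1).prod
      (isCompact_univ (X := V → Ang))).exists_bound_of_continuousOn
      (continuous_rot' E b a x y).continuousOn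
    have hcont : ∀ z, Continuous (rot E b a x y z) := fun z =>
      (continuous_rot E b a x y).comp (continuous_const.prodMk continuous_id)
    exact (hasDerivAt_integral_of_dominated_loc_of_deriv_le (F := rot E b a x y)
      (F' := rot' E b a x y) (bound := fun _ => M) (s := Metric.closedBall z₀ 1)
      (Metric.closedBall_mem_nhds _ one_pos)
      (Filter.Eventually.of_forall fun z => (hcont z).aestronglyMeasurable)
      (integrable_cont (hcont z₀))
      ((continuous_rot' E b a x y).comp
        (continuous_const.prodMk continuous_id)).aestronglyMeasurable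
      (Filter.Eventually.of_forall fun θ z hz => hM (z, θ) ⟨hz, Set.mem_univ _⟩)
      (integrable_const M)
      (Filter.Eventually.of_forall fun θ z _ => hasDerivAt_rot E b a x y z θ)).2.differentiableAt
  have hreal : ∀ t : ℝ, Φ t = Φ 0 := fun t => by
    simp only [hΦ, rot_real]
    exact integral_add_right_eq_self (rot E b a x y 0) (fun v => ((t * a v : ℝ) : Ang))
  have han : AnalyticOnNhd ℂ Φ Set.univ := fun z _ => hdiff.analyticAt z
  have hfreq : ∃ᶠ w in nhdsWithin (0 : ℂ) {0}ᶜ, Φ w = Φ 0 := by
    have ht : Filter.Tendsto (fun t : ℝ => (t : ℂ)) (nhdsWithin 0 {0}ᶜ)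
        (nhdsWithin (0 : ℂ) {0}ᶜ) := by
      refine tendsto_nhdsWithin_of_tendsto_nhds_of_eventually_within _ ?_ ?_
      · exact (Complex.continuous_ofReal.tendsto' 0 0 (by simp)).mono_left nhdsWithin_le_nhds
      · filter_upwards [self_mem_nhdsWithin] with t ht
        simpa using ht
    exact ht.frequently (Filter.Frequently.of_forall hreal)
  have := han.eqOn_of_preconnected_of_frequently_eq analyticOnNhd_const isPreconnected_univ
    (Set.mem_univ (0 : ℂ)) hfreq (Set.mem_univ z)
  exact this

/-- The rotation bound of McBryan and Spencer. -/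
theorem rotation_bound (E : Finset (V × V)) (b : ℝ) (a : V → ℝ) (x y : V) :
    |∫ θ : V → Ang, cA (θ x - θ y) * Real.exp (ham E (fun _ => b) θ)| ≤
      Real.exp (-(a x - a y)) * part E fun e => b * Real.cosh (a e.1 - a e.2) := by
  have h0 : ∀ θ : V → Ang, (rot E b a x y 0 θ).re =
      cA (θ x - θ y) * Real.exp (ham E (fun _ => b) θ) := by
    intro θ
    unfold rot
    simp only [zero_mul, add_zero, Complex.cos_zero, Complex.sin_zero, mul_one, mul_zero,
      sub_zero]
    rw [show ((b : ℂ) * ∑ e ∈ E, (cA (θ e.1 - θ e.2) : ℂ)) =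
      ((ham E (fun _ => b) θ : ℝ) : ℂ) by simp [ham, mul_sum], ← Complex.ofReal_exp]
    rw [Complex.mul_re, Complex.ofReal_re, Complex.ofReal_im]
    simp
    ring
  have hint : Integrable (rot E b a x y 0) (volume : Measure (V → Ang)) :=
    integrable_cont ((continuous_rot E b a x y).comp (continuous_const.prodMk continuous_id))
  have hre : ∫ θ : V → Ang, cA (θ x - θ y) * Real.exp (ham E (fun _ => b) θ) =
      (∫ θ : V → Ang, rot E b a x y 0 θ).re := by
    simp only [← h0]
    exact integral_re hint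
  rw [hre, ← integral_rot E b a x y Complex.I]
  refine (Complex.abs_re_le_norm _).trans ((norm_integral_le_integral_norm _).trans (le_of_eq ?_))
  rw [part, ← integral_const_mul]
  congr 1
  funext θ
  unfold rot
  rw [norm_mul, Complex.norm_exp, Complex.norm_add_mul_I, cA_sq_add_sA_sq, Real.sqrt_one,
    mul_one, ← Real.exp_add]
  congr 1
  have hcos : ∀ u : ℝ, Complex.cos (Complex.I * (u : ℂ)) = ((Real.cosh u : ℝ) : ℂ) := fun u => by
    rw [mul_comm, Complex.cos_mul_I, Complex.ofReal_cosh]
  have hsin : ∀ u : ℝ, Complex.sin (Complex.I * (u : ℂ)) = ((Real.sinh u : ℝ) : ℂ) * Complex.I :=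
    fun u => by rw [mul_comm, Complex.sin_mul_I, Complex.ofReal_sinh]
  simp only [hcos, hsin, ham]
  rw [Complex.add_re, add_comm, Complex.re_ofReal_mul, Complex.re_sum, mul_sum]
  congr 1
  · simp
  · exact sum_congr rfl fun e _ => by
      simp [← Complex.ofReal_sub, ← Complex.ofReal_cosh, ← Complex.ofReal_sinh]
      ring

/-- One edge is at most as aligned as a single angle in the strongest possible field. -/
theorem edge_le (E : Finset (V × V)) (w : V × V → ℝ) {W : ℝ} {x y : V} (hxy : x ≠ y)
    (hloop : ∀ e ∈ E, e.1 ≠ e.2)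
    (hW : ∑ e ∈ E.filter (fun e => e.1 = x ∨ e.2 = x), |w e| ≤ W) :
    ∫ θ : V → Ang, cA (θ x - θ y) * Real.exp (ham E w θ) ≤ rho W * part E w := by
  set N := E.filter (fun e => e.1 = x ∨ e.2 = x) with hN
  set Rst := E.filter (fun e => ¬(e.1 = x ∨ e.2 = x)) with hR
  have hT : (volume : Measure Ang).real Set.univ = 2 * π := by
    rw [measureReal_def, AddCircle.measure_univ, ENNReal.toReal_ofReal (by positivity)]
  have hcomm : ∀ G : (V → Ang) → ℝ, Continuous G →
      2 * π * ∫ θ : V → Ang, G θ = ∫ θ : V → Ang, ∫ t : Ang, G (θ + Pi.single x t) := by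
    intro G hG
    have hswap := integral_integral_swap (μ := (volume : Measure (V → Ang)))
      (ν := (volume : Measure Ang)) (f := fun θ t => G (θ + Pi.single x t))
      (integrable_cont (hG.comp (continuous_fst.add ((continuous_single x).comp continuous_snd))))
    refine Eq.trans ?_ hswap.symm
    simp only [integral_add_right_eq_self G]
    rw [integral_const, hT, smul_eq_mul]
  have hham : ∀ θ t, ham E w (θ + Pi.single x t) = ham Rst w θ +
      ∑ e ∈ N, w e * cA (t + (if e.1 = x then θ x - θ e.2 else θ x - θ e.1)) := by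
    intro θ t
    rw [ham, ← sum_filter_add_sum_filter_not E (fun e => e.1 = x ∨ e.2 = x), ← hN, ← hR, add_comm]
    congr 1
    · refine sum_congr rfl fun e he => ?_
      obtain ⟨-, h⟩ := mem_filter.1 he
      push Not at h
      simp [h.1, h.2]
    · refine sum_congr rfl fun e he => ?_
      obtain ⟨heE, h⟩ := mem_filter.1 he
      by_cases h1 : e.1 = x
      · have h2 : e.2 ≠ x := fun h2 => hloop e heE (h1.trans h2.symm)
        rw [if_pos h1]
        simp only [Pi.add_apply, Pi.single_eq_of_ne h2, add_zero, h1, Pi.single_eq_same]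
        rw [add_comm (θ x) t, add_sub_assoc]
      · have h2 : e.2 = x := h.resolve_left h1
        simp only [if_neg h1, Pi.add_apply, Pi.single_eq_of_ne h1, add_zero, h2, Pi.single_eq_same]
        rw [← cA_neg, neg_sub, add_comm (θ x) t, add_sub_assoc]
  have hψ : ∀ θ : V → Ang, ∀ t : Ang, cA ((θ + Pi.single x t : V → Ang) x -
      (θ + Pi.single x t : V → Ang) y) = cA (t + (θ x - θ y)) := fun θ t => by
    simp only [Pi.add_apply, Pi.single_eq_same, Pi.single_eq_of_ne hxy.symm, add_zero]
    rw [add_comm (θ x) t, add_sub_assoc]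
  have hpos : (0 : ℝ) < 2 * π := by positivity
  refine le_of_mul_le_mul_left ?_ hpos
  rw [mul_left_comm (2 * π) (rho W), part, hcomm _ (by fun_prop), hcomm _ (by fun_prop),
    ← integral_const_mul]
  simp only [hψ, hham, Real.exp_add, integral_const_mul, mul_left_comm _ (Real.exp (ham Rst w _))]
  have hpar : ∀ F : (V → Ang) → Ang → ℝ, Continuous (Function.uncurry F) →
      Continuous fun θ => ∫ t : Ang, F θ t := fun F hF => by
    have h := continuous_parametric_integral_of_continuous (μ := (volume : Measure Ang)) hF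
      isCompact_univ
    simpa [Measure.restrict_univ] using h
  have hif : ∀ e : V × V, Continuous fun q : (V → Ang) × Ang =>
      cA (q.2 + if e.1 = x then q.1 x - q.1 e.2 else q.1 x - q.1 e.1) := fun e => by
    split_ifs <;> fun_prop
  have hsum : Continuous fun q : (V → Ang) × Ang =>
      Real.exp (∑ e ∈ N, w e * cA (q.2 + if e.1 = x then q.1 x - q.1 e.2 else q.1 x - q.1 e.1)) :=
    Real.continuous_exp.comp (continuous_finsetSum _ fun e _ => continuous_const.mul (hif e))
  refine integral_mono ?_ ?_ fun θ => ?_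
  · exact integrable_cont (Continuous.mul (by fun_prop) (hpar (fun θ t => cA (t + (θ x - θ y)) *
      Real.exp (∑ e ∈ N, w e * cA (t + if e.1 = x then θ x - θ e.2 else θ x - θ e.1)))
      (Continuous.mul (f := fun q : (V → Ang) × Ang => cA (q.2 + (q.1 x - q.1 y)))
        (by fun_prop) hsum)))
  · exact integrable_cont (Continuous.mul (by fun_prop) (continuous_const.mul (hpar (fun θ t =>
      Real.exp (∑ e ∈ N, w e * cA (t + if e.1 = x then θ x - θ e.2 else θ x - θ e.1))) hsum)))
  · exact mul_le_mul_of_nonneg_left (one_site N w _ _ hW) (Real.exp_pos _).le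

/-- Changing the weights costs at most the one-site energy. -/
theorem part_le (E : Finset (V × V)) (w₀ w : V × V → ℝ) {W : ℝ}
    (hloop : ∀ e ∈ E, e.1 ≠ e.2) (hle : ∀ e ∈ E, w₀ e ≤ w e)
    (hW : ∀ x, ∑ e ∈ E.filter (fun e => e.1 = x ∨ e.2 = x), |w e| ≤ W) :
    part E w ≤ part E w₀ * Real.exp (rho W * ∑ e ∈ E, (w e - w₀ e)) := by
  set m := rho W * ∑ e ∈ E, (w e - w₀ e) with hm
  set X : (V → Ang) → ℝ := fun θ => ∑ e ∈ E, (w e - w₀ e) * cA (θ e.1 - θ e.2) with hX
  have hXint : ∫ θ : V → Ang, X θ * Real.exp (ham E w θ) ≤ m * part E w := by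
    simp only [hX, sum_mul, hm, mul_sum]
    rw [integral_finsetSum _ fun e _ => integrable_cont (by fun_prop)]
    refine sum_le_sum fun e he => ?_
    simp only [mul_assoc]
    rw [integral_const_mul, mul_left_comm]
    exact mul_le_mul_of_nonneg_left (edge_le E w (hloop e he) hloop (hW e.1))
      (sub_nonneg.2 (hle e he))
  have h1 : Real.exp (-m) * part E w ≤ part E w₀ := by
    calc Real.exp (-m) * part E w
        ≤ Real.exp (-m) * part E w +
          Real.exp (-m) * (m * part E w - ∫ θ : V → Ang, X θ * Real.exp (ham E w θ)) := by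
          have := mul_nonneg (Real.exp_pos (-m)).le (sub_nonneg.2 hXint)
          linarith
      _ = ∫ θ : V → Ang, Real.exp (-m) * ((1 + m) * Real.exp (ham E w θ) -
            X θ * Real.exp (ham E w θ)) := by
          rw [integral_const_mul, integral_sub (integrable_cont (by fun_prop))
            (integrable_cont (by fun_prop)), integral_const_mul, part]
          ring
      _ ≤ part E w₀ := by
          refine integral_mono (integrable_cont (by fun_prop)) (integrable_cont (by fun_prop))
            fun θ => ?_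
          have hsplit : ham E w₀ θ = -X θ + ham E w θ := by
            simp only [ham, hX, ← sum_neg_distrib, ← sum_add_distrib]
            exact sum_congr rfl fun e _ => by ring
          rw [hsplit, Real.exp_add, ← sub_mul, ← mul_assoc]
          refine mul_le_mul_of_nonneg_right ?_ (Real.exp_pos _).le
          calc Real.exp (-m) * (1 + m - X θ) ≤ Real.exp (-m) * Real.exp (m - X θ) :=
                mul_le_mul_of_nonneg_left (by linarith [Real.add_one_le_exp (m - X θ)])
                  (Real.exp_pos _).le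
            _ = Real.exp (-X θ) := by rw [← Real.exp_add]; congr 1; ring
  calc part E w = Real.exp m * (Real.exp (-m) * part E w) := by
        rw [← mul_assoc, ← Real.exp_add, add_neg_cancel, Real.exp_zero, one_mul]
    _ ≤ Real.exp m * part E w₀ := mul_le_mul_of_nonneg_left h1 (Real.exp_pos _).le
    _ = _ := mul_comm _ _

/-- Both steps together. -/
theorem two_point_le (E : Finset (V × V)) (hloop : ∀ e ∈ E, e.1 ≠ e.2) {b W : ℝ} (hb : 0 ≤ b)
    (a : V → ℝ) (hW : ∀ x, ∑ e ∈ E.filter (fun e => e.1 = x ∨ e.2 = x),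
      b * Real.cosh (a e.1 - a e.2) ≤ W) (x y : V) :
    |(∫ θ : V → Ang, cA (θ x - θ y) * Real.exp (ham E (fun _ => b) θ)) / part E fun _ => b| ≤
      Real.exp (-(a x - a y) +
        rho W * ∑ e ∈ E, (b * Real.cosh (a e.1 - a e.2) - b)) := by
  have hpos := part_pos E fun _ => b
  rw [abs_div, abs_of_pos hpos, div_le_iff₀ hpos, Real.exp_add, mul_assoc,
    mul_comm (Real.exp (rho W * _))]
  refine (rotation_bound E b a x y).trans (mul_le_mul_of_nonneg_left ?_ (Real.exp_pos _).le)
  refine part_le E _ _ hloop (fun e _ => le_mul_of_one_le_right hb (Real.one_le_cosh _)) fun v => ?_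
  refine (le_of_eq (sum_congr rfl fun e _ => abs_of_nonneg ?_)).trans (hW v)
  exact mul_nonneg hb (Real.cosh_pos _).le

end Vale.Agent.P159
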